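/-
Row 324, module G, tag Geo/T (G1 + G2 of the blueprint): tensoriality of the coordinate curvature notions of `Def_0510`.
Architect of this tag: helper672.   DEFINITIONS (frozen; do not change).

`tE d = ℝ^d`, `tb i` = standard basis vector, `tpr i` = coordinate functional.
For a matrix field `G` (`tMF d`):
  `tForm G x`  : the bilinear form  (v,w) ↦ ∑ G_ij v_i w_j           (continuous bilinear map, values in ℝ)
  `tConn G x`  : the connection term (v,w) ↦ ∑ Γ^k_ij v_i w_j e_k      (continuous bilinear map, values in ℝ^d)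
  `tCurv G x a b c = (D_aΓ)(b,c) - (D_bΓ)(a,c) + Γ(a,Γ(b,c)) - Γ(b,Γ(a,c))`     (`= R(a,b)c`)
  `tReg G Ω`   : `Ω` open, entries smooth on `Ω`, `G` symmetric and invertible on `Ω`
  `tPull G' G θ Ω` : `G' = θ^* G` on `Ω`.
-/
import Claimed.Prelude.Def_0510

set_option autoImplicit false

namespace Claimed.Agent.R324

open Set Claims.C0510
open scoped ContDiff Topology

noncomputable section

/-- `ℝ^d`. -/
abbrev tE (d : ℕ) := EuclideanSpace ℝ (Fin d)

/-- matrix fields on `ℝ^d`. -/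
abbrev tMF (d : ℕ) := tE d → Matrix (Fin d) (Fin d) ℝ

/-- standard basis vector. -/
abbrev tb {d : ℕ} (i : Fin d) : tE d := EuclideanSpace.single i (1 : ℝ)

/-- coordinate functional. -/
abbrev tpr {d : ℕ} (i : Fin d) : tE d →L[ℝ] ℝ := EuclideanSpace.proj i

/-- the bilinear form of a matrix field. -/
def tForm {d : ℕ} (G : tMF d) (x : tE d) : tE d →L[ℝ] tE d →L[ℝ] ℝ :=
  ∑ i, ∑ j, G x i j • (tpr i).smulRight (tpr j)

/-- the connection term `Γ(x)(v,w)`. -/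
def tConn {d : ℕ} (G : tMF d) (x : tE d) : tE d →L[ℝ] tE d →L[ℝ] tE d :=
  ∑ k, ∑ i, ∑ j, christoffel G x k i j • (tpr i).smulRight ((tpr j).smulRight (tb k))

/-- the curvature operator `R(a,b)c`. -/
def tCurv {d : ℕ} (G : tMF d) (x a b c : tE d) : tE d :=
  fderiv ℝ (tConn G) x a b c - fderiv ℝ (tConn G) x b a c
    + tConn G x a (tConn G x b c) - tConn G x b (tConn G x a c)

/-- regular matrix field on an open set. -/
structure tReg {d : ℕ} (G : tMF d) (Ω : Set (tE d)) : Prop where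
  isOpen : IsOpen Ω
  smooth : ∀ i j, ContDiffOn ℝ ∞ (fun y => G y i j) Ω
  symm : ∀ y ∈ Ω, ∀ i j, G y i j = G y j i
  unit : ∀ y ∈ Ω, IsUnit (G y).det

/-- `G'` is the pull back of `G` under `θ` on `Ω`. -/
def tPull {d : ℕ} (G' G : tMF d) (θ : tE d → tE d) (Ω : Set (tE d)) : Prop :=
  ∀ x ∈ Ω, ∀ v w : tE d, tForm G' x v w = tForm G (θ x) (fderiv ℝ θ x v) (fderiv ℝ θ x w)

/-- domain of the transition map `ψ₂⁻¹ ∘ ψ₁`. -/
def tDom {d N : ℕ} (ψ₁ : tE d → tE N) (U₁ : Set (tE d)) (ψ₂ : tE d → tE N) (U₂ : Set (tE d)) :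
    Set (tE d) := {x | x ∈ U₁ ∧ ψ₁ x ∈ ψ₂ '' U₂}

/-- the transition map `ψ₂⁻¹ ∘ ψ₁`. -/
def tMap {d N : ℕ} (ψ₁ ψ₂ : tE d → tE N) (U₂ : Set (tE d)) : tE d → tE d :=
  fun x => Function.invFunOn ψ₂ U₂ (ψ₁ x)

theorem tReg.mono {d : ℕ} {G : tMF d} {Ω Ω₀ : Set (tE d)} (h : tReg G Ω) (h₀ : IsOpen Ω₀)
    (hs : Ω₀ ⊆ Ω) : tReg G Ω₀ :=
  ⟨h₀, fun i j => (h.smooth i j).mono hs, fun y hy => h.symm y (hs hy),
    fun y hy => h.unit y (hs hy)⟩

end

end Claimed.Agent.R324
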