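/-
Row 324, tag Geo/T.  Evaluation formulas for `tForm`, `tConn`; expansion of vectors in the standard basis.
-/
import Claimed.Agent.R324.Geo.T.Defs

set_option autoImplicit false

namespace Claimed.Agent.R324

open Set Claims.C0510
open scoped ContDiff Topology

variable {d : ℕ}

theorem tb_apply (i j : Fin d) : (tb i : tE d) j = if j = i then 1 else 0 := by
  simp [tb]

theorem tE_eq_sum (v : tE d) : v = ∑ i, v i • (tb i : tE d) := by
  ext j
  simp [Pi.single_apply]

theorem tForm_apply (G : tMF d) (x v w : tE d) :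
    tForm G x v w = ∑ i, ∑ j, G x i j * v i * w j := by
  simp [tForm, mul_assoc]

theorem tConn_apply (G : tMF d) (x v w : tE d) (l : Fin d) :
    tConn G x v w l = ∑ i, ∑ j, christoffel G x l i j * v i * w j := by
  simp only [tConn, sum_apply, smul_apply, ContinuousLinearMap.smulRight_apply]
  simp only [WithLp.ofLp_sum, WithLp.ofLp_smul, Finset.sum_apply, Pi.smul_apply, tb_apply,
    smul_eq_mul]
  rw [Finset.sum_eq_single l]
  · simp [mul_assoc]
  · intro b _ hb
    simp [Ne.symm hb]
  · simp

theorem tForm_tb (G : tMF d) (x : tE d) (i j : Fin d) : tForm G x (tb i) (tb j) = G x i j := by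
  rw [tForm_apply]
  simp

theorem tConn_tb (G : tMF d) (x : tE d) (i j l : Fin d) :
    tConn G x (tb i) (tb j) l = christoffel G x l i j := by
  rw [tConn_apply]
  simp

/-- a continuous linear map evaluated through the basis. -/
theorem tclm_eq_sum {F : Type*} [AddCommGroup F] [Module ℝ F] [TopologicalSpace F]
    (L : tE d →L[ℝ] F) (v : tE d) : L v = ∑ i, v i • L (tb i) := by
  conv_lhs => rw [tE_eq_sum v]
  simp

theorem tpdiff_eq (f : tE d → ℝ) (i : Fin d) (u : tE d) : pdiff f i u = fderiv ℝ f u (tb i) := rfl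

/-- component of the derivative of a vector valued map. -/
theorem tfderiv_comp_apply {θ : tE d → tE d} {x : tE d} (h : DifferentiableAt ℝ θ x) (v : tE d)
    (b : Fin d) : fderiv ℝ θ x v b = fderiv ℝ (fun w => θ w b) x v := by
  have h1 : HasFDerivAt (fun w => θ w b) ((tpr b).comp (fderiv ℝ θ x)) x :=
    (tpr b).hasFDerivAt.comp x h.hasFDerivAt
  rw [h1.fderiv]
  rfl

end Claimed.Agent.R324
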