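/-
Row 324, tag Geo/T.  LEAF FILE `Theta`: calculus facts on a smooth map `θ` on an open set (first, second, third derivative).

PROOFS.  `hx : x ∈ Ω`, `hΩ : IsOpen Ω`:  `c := hθ.contDiffAt (hΩ.mem_nhds hx) : ContDiffAt ℝ ∞ θ x`.
* `tθ_hasFDerivAt`: `(c.differentiableAt (by simp)).hasFDerivAt`.
* `tθ_fderiv_smooth`: `hθ.fderiv_of_isOpen hΩ (by simp)` (`m + 1 ≤ ∞` with `m = ∞`).   `tθ_fderiv2_smooth`: apply it twice.
* `tθ_hasFDerivAt₂`, `tθ_hasFDerivAt₃`: from the two previous ones as in the first item.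
* `tθ_symm₂`: `c.isSymmSndFDerivAt (by simp; norm_cast) a b`  (see R211/Pk03.lean `snd_symm_of_on`; the side condition is `minSmoothness ℝ 2 ≤ ∞`).
* `tθ_symm₃`: the same for the map `fderiv ℝ θ` (smooth at `x` by `tθ_fderiv_smooth`): `fderiv ℝ (fderiv ℝ (fderiv ℝ θ)) x a b = fderiv ℝ (fderiv ℝ (fderiv ℝ θ)) x b a` as elements of `tE d →L[ℝ] tE d`; apply to `c`.
-/
import Claimed.Agent.R324.Geo.T.Basic

set_option autoImplicit false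

namespace Claimed.Agent.R324

open Set Claims.C0510
open scoped ContDiff Topology

variable {d : ℕ} {θ : tE d → tE d} {Ω : Set (tE d)}

theorem tθ_hasFDerivAt (hΩ : IsOpen Ω) (hθ : ContDiffOn ℝ ∞ θ Ω) {x : tE d} (hx : x ∈ Ω) :
    HasFDerivAt θ (fderiv ℝ θ x) x := by
  exact ((hθ.contDiffAt (hΩ.mem_nhds hx)).differentiableAt (by simp)).hasFDerivAt

theorem tθ_fderiv_smooth (hΩ : IsOpen Ω) (hθ : ContDiffOn ℝ ∞ θ Ω) :
    ContDiffOn ℝ ∞ (fderiv ℝ θ) Ω := by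
  exact hθ.fderiv_of_isOpen hΩ (by simp)

theorem tθ_fderiv2_smooth (hΩ : IsOpen Ω) (hθ : ContDiffOn ℝ ∞ θ Ω) :
    ContDiffOn ℝ ∞ (fderiv ℝ (fderiv ℝ θ)) Ω := by
  exact (tθ_fderiv_smooth hΩ hθ).fderiv_of_isOpen hΩ (by simp)

theorem tθ_hasFDerivAt₂ (hΩ : IsOpen Ω) (hθ : ContDiffOn ℝ ∞ θ Ω) {x : tE d} (hx : x ∈ Ω) :
    HasFDerivAt (fderiv ℝ θ) (fderiv ℝ (fderiv ℝ θ) x) x := by
  exact (((tθ_fderiv_smooth hΩ hθ).contDiffAt (hΩ.mem_nhds hx)).differentiableAt (by simp)).hasFDerivAt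

theorem tθ_hasFDerivAt₃ (hΩ : IsOpen Ω) (hθ : ContDiffOn ℝ ∞ θ Ω) {x : tE d} (hx : x ∈ Ω) :
    HasFDerivAt (fderiv ℝ (fderiv ℝ θ)) (fderiv ℝ (fderiv ℝ (fderiv ℝ θ)) x) x := by
  exact (((tθ_fderiv2_smooth hΩ hθ).contDiffAt (hΩ.mem_nhds hx)).differentiableAt (by simp)).hasFDerivAt

theorem tθ_symm₂ (hΩ : IsOpen Ω) (hθ : ContDiffOn ℝ ∞ θ Ω) {x : tE d} (hx : x ∈ Ω) (a b : tE d) :
    fderiv ℝ (fderiv ℝ θ) x a b = fderiv ℝ (fderiv ℝ θ) x b a := by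
  exact (hθ.contDiffAt (hΩ.mem_nhds hx)).isSymmSndFDerivAt (by simp; norm_cast) a b

theorem tθ_symm₃ (hΩ : IsOpen Ω) (hθ : ContDiffOn ℝ ∞ θ Ω) {x : tE d} (hx : x ∈ Ω)
    (a b c : tE d) :
    fderiv ℝ (fderiv ℝ (fderiv ℝ θ)) x a b c = fderiv ℝ (fderiv ℝ (fderiv ℝ θ)) x b a c := by
  have h := ((tθ_fderiv_smooth hΩ hθ).contDiffAt (hΩ.mem_nhds hx)).isSymmSndFDerivAt (by simp; norm_cast) a b
  exact congrArg (fun L : tE d →L[ℝ] tE d => L c) h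

end Claimed.Agent.R324
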