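/-
Row 324, tag Geo/T.  LEAF FILE `Jac`: bridge between helper427's matrix notions (`jac`, `pullG`, `SmoothG`, Geo/Defs.lean) and the invariant ones (`fderiv`, `tPull`, `tReg`).

PROOFS.
* `tcong_apply`: `Matrix.mul_apply`, `Matrix.transpose_apply`, `Finset.sum_mul`, `Finset.sum_comm`, `ring`.
* `pullG_apply`: `unfold pullG`, `tcong_apply`, `jac` is `Matrix.of ..` (`rfl`/`Matrix.of_apply`).
* `tjac_eq_fderiv`: `tfderiv_comp_apply h`, `tpdiff_eq`.
* `tjac_isUnit`: let `J = jac θ x`.  `(J.mulVec v) b = ∑ i, J b i * v i = fderiv ℝ θ x (toLp v) b` (`tclm_eq_sum`, `tjac_eq_fderiv`).   If `J.mulVec v = 0` then `fderiv ℝ θ x (toLp v) = 0`, so `v = 0`.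
     `Matrix.isUnit_det_iff..`:  e.g. `Matrix.mulVec_injective_iff_isUnit : Function.Injective A.mulVec ↔ IsUnit A` and `Matrix.isUnit_iff_isUnit_det`;  or by contradiction `Matrix.exists_mulVec_eq_zero_iff : (∃ v ≠ 0, M *ᵥ v = 0) ↔ M.det = 0`.
* `tPull_pullG`: `tForm_apply` on both sides, `pullG_apply`, `fderiv ℝ θ x v b = ∑ i, v i * pdiff (θ^b) i x` (`tclm_eq_sum`, `tfderiv_comp_apply`, `WithLp.ofLp_sum`, ...); rearrange sums (`Finset.sum_mul`, `Finset.mul_sum`, `Finset.sum_comm`, `ring`).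
     Cleaner: both sides are bilinear in `(v,w)`; check it on basis vectors (`tForm_tb`, `pullG_apply`, `tForm_apply`, `tjac_eq_fderiv`) and expand `v`, `w` with `tclm_eq_sum`.
* `tReg_pullG`: `isOpen := hO`.  `smooth`: `pullG_apply`; `y ↦ pdiff (θ^b) i y = fderiv ℝ θ y (tb i) b` on `O` is smooth (`tθ_fderiv_smooth`, `ContDiffOn.clm_apply`, compose with the CLM `tpr b`; `ContDiffOn.congr`),
     `y ↦ G (θ y) b c` is smooth (`(hG.smooth b c).comp hθ hmaps`); `ContDiffOn.sum/mul`.   `symm`: `pullG_apply`, `Finset.sum_comm`, `hG.symm`.   `unit`: `Matrix.det_mul`, `Matrix.det_transpose`, `IsUnit.mul`.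
-/
import Claimed.Agent.R324.Geo.Defs
import Claimed.Agent.R324.Geo.T.Theta

set_option autoImplicit false

namespace Claimed.Agent.R324

open Set Claims.C0510
open scoped ContDiff Topology

variable {d : ℕ}

theorem tcong_apply (J A : Matrix (Fin d) (Fin d) ℝ) (j k : Fin d) :
    (J.transpose * A * J) j k = ∑ b, ∑ c, J b j * J c k * A b c := by
  simp only [Matrix.mul_apply, Matrix.transpose_apply, Finset.sum_mul]
  rw [Finset.sum_comm]
  refine Finset.sum_congr rfl fun b _ => Finset.sum_congr rfl fun c _ => ?_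
  ring

theorem pullG_apply (θ : tE d → tE d) (G : tMF d) (x : tE d) (j k : Fin d) :
    pullG θ G x j k = ∑ b, ∑ c, pdiff (fun w => θ w b) j x * pdiff (fun w => θ w c) k x
      * G (θ x) b c := by
  unfold pullG
  rw [tcong_apply]
  rfl

theorem tjac_eq_fderiv {θ : tE d → tE d} {x : tE d} (h : DifferentiableAt ℝ θ x) (b i : Fin d) :
    jac θ x b i = fderiv ℝ θ x (tb i) b := by
  rw [tfderiv_comp_apply h]
  rfl

theorem tjac_isUnit {θ : tE d → tE d} {x : tE d} (h : DifferentiableAt ℝ θ x)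
    (hinj : Function.Injective (fderiv ℝ θ x)) : IsUnit (jac θ x).det := by
  rw [isUnit_iff_ne_zero]
  intro hdet
  obtain ⟨v, hv, hv0⟩ := Matrix.exists_mulVec_eq_zero_iff.2 hdet
  apply hv
  have h1 : fderiv ℝ θ x (WithLp.toLp 2 v) = 0 := by
    ext b
    rw [tclm_eq_sum]
    have h2 := congrFun hv0 b
    simp only [Matrix.mulVec, dotProduct, tjac_eq_fderiv h, Pi.zero_apply] at h2
    simp only [WithLp.ofLp_sum, WithLp.ofLp_smul, Finset.sum_apply, Pi.smul_apply, smul_eq_mul,
      WithLp.ofLp_zero, Pi.zero_apply]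
    rw [← h2]
    refine Finset.sum_congr rfl fun i _ => ?_
    ring
  have h3 : WithLp.toLp 2 v = 0 := hinj (by rw [h1, map_zero])
  have h4 := congrArg WithLp.ofLp h3
  simpa using h4

theorem tjb_fderiv_apply {θ : tE d → tE d} {x : tE d} (h : DifferentiableAt ℝ θ x) (v : tE d)
    (b : Fin d) : fderiv ℝ θ x v b = ∑ j, v j * pdiff (fun w => θ w b) j x := by
  rw [tfderiv_comp_apply h, tclm_eq_sum]
  simp [tpdiff_eq, smul_eq_mul]

theorem tPull_pullG {θ : tE d → tE d} {O : Set (tE d)} (hO : IsOpen O) (hθ : ContDiffOn ℝ ∞ θ O)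
    (G : tMF d) : tPull (pullG θ G) G θ O := by
  intro x hx v w
  have h : DifferentiableAt ℝ θ x := (tθ_hasFDerivAt hO hθ hx).differentiableAt
  rw [tForm_apply, tForm_apply]
  simp only [pullG_apply, tjb_fderiv_apply h]
  simp only [Finset.sum_mul, Finset.mul_sum]
  calc ∑ j, ∑ k, ∑ b, ∑ c, pdiff (fun w => θ w b) j x * pdiff (fun w => θ w c) k x
          * G (θ x) b c * v j * w k
      = ∑ j, ∑ b, ∑ k, ∑ c, pdiff (fun w => θ w b) j x * pdiff (fun w => θ w c) k x
          * G (θ x) b c * v j * w k := by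
        refine Finset.sum_congr rfl fun j _ => ?_
        exact Finset.sum_comm
    _ = ∑ b, ∑ j, ∑ k, ∑ c, pdiff (fun w => θ w b) j x * pdiff (fun w => θ w c) k x
          * G (θ x) b c * v j * w k := Finset.sum_comm
    _ = ∑ b, ∑ j, ∑ c, ∑ k, pdiff (fun w => θ w b) j x * pdiff (fun w => θ w c) k x
          * G (θ x) b c * v j * w k := by
        refine Finset.sum_congr rfl fun b _ => Finset.sum_congr rfl fun j _ => ?_
        exact Finset.sum_comm
    _ = ∑ b, ∑ c, ∑ j, ∑ k, pdiff (fun w => θ w b) j x * pdiff (fun w => θ w c) k x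
          * G (θ x) b c * v j * w k := by
        refine Finset.sum_congr rfl fun b _ => ?_
        exact Finset.sum_comm
    _ = _ := by
        refine Finset.sum_congr rfl fun b _ => Finset.sum_congr rfl fun c _ => ?_
        rw [Finset.sum_comm]
        refine Finset.sum_congr rfl fun j _ => Finset.sum_congr rfl fun k _ => ?_
        ring

theorem tReg_pullG {θ : tE d → tE d} {O V : Set (tE d)} {G : tMF d} (hO : IsOpen O)
    (hθ : ContDiffOn ℝ ∞ θ O) (hmaps : MapsTo θ O V) (hJ : ∀ x ∈ O, IsUnit (jac θ x).det)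
    (hG : tReg G V) : tReg (pullG θ G) O := by
  have hp : ∀ (b i : Fin d), ContDiffOn ℝ ∞ (fun y => pdiff (fun w => θ w b) i y) O := by
    intro b i
    have h1 : ContDiffOn ℝ ∞ (fun y => fderiv ℝ θ y (tb i)) O :=
      (tθ_fderiv_smooth hO hθ).clm_apply contDiffOn_const
    have h2 : ContDiffOn ℝ ∞ (fun y => tpr b (fderiv ℝ θ y (tb i))) O :=
      (tpr b).contDiff.comp_contDiffOn h1
    refine h2.congr fun y hy => ?_
    have h : DifferentiableAt ℝ θ y := (tθ_hasFDerivAt hO hθ hy).differentiableAt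
    rw [tpdiff_eq, ← tfderiv_comp_apply h]
    rfl
  refine ⟨hO, ?_, ?_, ?_⟩
  · intro j k
    simp only [pullG_apply]
    refine ContDiffOn.sum fun b _ => ContDiffOn.sum fun c _ => ?_
    exact ((hp b j).mul (hp c k)).mul ((hG.smooth b c).comp hθ hmaps)
  · intro y hy j k
    rw [pullG_apply, pullG_apply, Finset.sum_comm]
    refine Finset.sum_congr rfl fun b _ => Finset.sum_congr rfl fun c _ => ?_
    rw [hG.symm (θ y) (hmaps hy) c b]
    ring
  · intro y hy
    unfold pullG
    rw [Matrix.det_mul, Matrix.det_mul, Matrix.det_transpose]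
    exact ((hJ y hy).mul (hG.unit (θ y) (hmaps hy))).mul (hJ y hy)

end Claimed.Agent.R324
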