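/-
Row 324, tag Geo/T.  LEAF FILE `Smooth`: smoothness of `tForm`, `tConn`.

* `tReg.christoffel_smooth`: done (one line from helper427's `R324/Geo/RegB.lean`).
* `tReg.tForm_smooth`, `tReg.tConn_smooth` (LEAF): unfold `tForm` / `tConn`; finite sums of (smooth scalar function) • (constant): `ContDiffOn.sum`, `ContDiffOn.smul _ contDiffOn_const`
     (if `unfold` leaves `tForm G` unapplied, first `have : tForm G = fun x => ∑ i, ∑ j, G x i j • _ := rfl` / `funext`).
* `tReg.tForm_hasFDerivAt`, `tReg.tConn_hasFDerivAt` (LEAF): `((h.contDiffAt (hG.isOpen.mem_nhds hy)).differentiableAt (by simp)).hasFDerivAt`.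
-/
import Claimed.Agent.R324.Geo.T.Basic
import Claimed.Agent.R324.Geo.RegB

set_option autoImplicit false

namespace Claimed.Agent.R324

open Set Claims.C0510
open scoped ContDiff Topology

variable {d : ℕ} {G : tMF d} {Ω : Set (tE d)}

theorem tReg.christoffel_smooth (hG : tReg G Ω) (k i j : Fin d) :
    ContDiffOn ℝ ∞ (fun y => christoffel G y k i j) Ω :=
  christoffel_contDiffOn hG.isOpen hG.smooth hG.unit k i j

theorem tsm_smul_const {F : Type*} [NormedAddCommGroup F] [NormedSpace ℝ F] {f : tE d → ℝ}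
    (hf : ContDiffOn ℝ ∞ f Ω) (L : F) : ContDiffOn ℝ ∞ (fun y => f y • L) Ω :=
  hf.smul contDiffOn_const

theorem tReg.tForm_smooth (hG : tReg G Ω) : ContDiffOn ℝ ∞ (tForm G) Ω := by
  have h : tForm G = fun x => ∑ i, ∑ j, G x i j • (tpr i).smulRight (tpr j) := rfl
  rw [h]
  exact ContDiffOn.sum fun i _ => ContDiffOn.sum fun j _ => tsm_smul_const (hG.smooth i j) _

theorem tReg.tConn_smooth (hG : tReg G Ω) : ContDiffOn ℝ ∞ (tConn G) Ω := by
  have h : tConn G = fun x => ∑ k, ∑ i, ∑ j,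
      christoffel G x k i j • (tpr i).smulRight ((tpr j).smulRight (tb k)) := rfl
  rw [h]
  exact ContDiffOn.sum fun k _ => ContDiffOn.sum fun i _ => ContDiffOn.sum fun j _ =>
    tsm_smul_const (hG.christoffel_smooth k i j) _

theorem tReg.tForm_hasFDerivAt (hG : tReg G Ω) {y : tE d} (hy : y ∈ Ω) :
    HasFDerivAt (tForm G) (fderiv ℝ (tForm G) y) y := by
  exact ((hG.tForm_smooth.contDiffAt (hG.isOpen.mem_nhds hy)).differentiableAt (by simp)).hasFDerivAt

theorem tReg.tConn_hasFDerivAt (hG : tReg G Ω) {y : tE d} (hy : y ∈ Ω) :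
    HasFDerivAt (tConn G) (fderiv ℝ (tConn G) y) y := by
  exact ((hG.tConn_smooth.contDiffAt (hG.isOpen.mem_nhds hy)).differentiableAt (by simp)).hasFDerivAt

end Claimed.Agent.R324
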