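/-
Row 324, tag Geo/T.  LEAF FILE `Bridge`: derivatives of `tForm`, `tConn` in coordinates; `riemannCoord`, `ricciCoord` through `tCurv`.

PROOFS.  `y ∈ Ω`, `Ω` open, so `ContDiffOn` gives `ContDiffAt` (`ContDiffOn.contDiffAt h (hG.isOpen.mem_nhds hy)`) and `DifferentiableAt` (`.differentiableAt (by simp)`).
* `fderiv_tForm_apply`:  `tForm G = fun z => ∑ i, ∑ j, G z i j • B i j` with constant `B i j`.  Build `HasFDerivAt (tForm G) (∑ i, ∑ j, (fderiv ℝ (fun z => G z i j) y).smulRight (B i j)) y`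
     with `HasFDerivAt.fun_sum` / `HasFDerivAt.sum` and `HasFDerivAt.smul_const`; take `.fderiv`, evaluate (`simp`, as in `tForm_apply`).
* `fderiv_tConn_apply`: the same with `tReg.christoffel_smooth`; evaluation of the `l`-th component as in `tConn_apply`.
* `riemannCoord_eq`: unfold `riemannCoord`, `tCurv`, `pdiff`; components: `PiLp.sub_apply/add_apply` (`simp`), `fderiv_tConn_apply` at basis vectors (sums collapse: `tb_apply`, `Finset.sum_ite_eq`),
     `tConn_apply` for `Γ(e_i, Γ(e_j,e_k))` with `tConn_tb`:  `(Γ(e_i, z)) l = ∑_p Γ^l_{ip} z_p`;  `Finset.sum_sub_distrib`.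
* `ricciCoord_eq`: unfold `ricciCoord`, `riemannCoord_eq`.
-/
import Claimed.Agent.R324.Geo.T.Smooth

set_option autoImplicit false

namespace Claimed.Agent.R324

open Set Claims.C0510
open scoped ContDiff Topology

theorem tbr_hasFDerivAt_sum {E F : Type*} [NormedAddCommGroup E] [NormedSpace ℝ E]
    [NormedAddCommGroup F] [NormedSpace ℝ F] {ι : Type*} [Fintype ι]
    (f : ι → E → ℝ) (f' : ι → E →L[ℝ] ℝ) (c : ι → F) (y : E)
    (h : ∀ i, HasFDerivAt (f i) (f' i) y) :
    HasFDerivAt (fun z => ∑ i, f i z • c i) (∑ i, (f' i).smulRight (c i)) y :=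
  HasFDerivAt.fun_sum fun i _ => (h i).smul_const _

theorem tbr_hasFDerivAt_sum2 {E F : Type*} [NormedAddCommGroup E] [NormedSpace ℝ E]
    [NormedAddCommGroup F] [NormedSpace ℝ F] {ι κ : Type*} [Fintype ι] [Fintype κ]
    (f : ι → κ → E → ℝ) (f' : ι → κ → E →L[ℝ] ℝ) (c : ι → κ → F) (y : E)
    (h : ∀ i j, HasFDerivAt (f i j) (f' i j) y) :
    HasFDerivAt (fun z => ∑ i, ∑ j, f i j z • c i j) (∑ i, ∑ j, (f' i j).smulRight (c i j)) y :=
  HasFDerivAt.fun_sum fun i _ => tbr_hasFDerivAt_sum (f i) (f' i) (c i) y (h i)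

theorem tbr_hasFDerivAt_sum3 {E F : Type*} [NormedAddCommGroup E] [NormedSpace ℝ E]
    [NormedAddCommGroup F] [NormedSpace ℝ F] {ι κ μ : Type*} [Fintype ι] [Fintype κ] [Fintype μ]
    (f : ι → κ → μ → E → ℝ) (f' : ι → κ → μ → E →L[ℝ] ℝ) (c : ι → κ → μ → F) (y : E)
    (h : ∀ i j k, HasFDerivAt (f i j k) (f' i j k) y) :
    HasFDerivAt (fun z => ∑ i, ∑ j, ∑ k, f i j k z • c i j k)
      (∑ i, ∑ j, ∑ k, (f' i j k).smulRight (c i j k)) y :=
  HasFDerivAt.fun_sum fun i _ => tbr_hasFDerivAt_sum2 (f i) (f' i) (c i) y (h i)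

variable {d : ℕ} {G : tMF d} {Ω : Set (tE d)}

theorem tReg.fderiv_tForm_apply (hG : tReg G Ω) {y : tE d} (hy : y ∈ Ω) (a v w : tE d) :
    fderiv ℝ (tForm G) y a v w = ∑ i, ∑ j, fderiv ℝ (fun z => G z i j) y a * v i * w j := by
  have hd : ∀ i j, HasFDerivAt (fun z => G z i j) (fderiv ℝ (fun z => G z i j) y) y := fun i j =>
    (((hG.smooth i j).contDiffAt (hG.isOpen.mem_nhds hy)).differentiableAt (by simp)).hasFDerivAt
  have h := tbr_hasFDerivAt_sum2 (fun i j z => G z i j) (fun i j => fderiv ℝ (fun z => G z i j) y)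
    (fun i j => (tpr i).smulRight (tpr j)) y hd
  have h' : HasFDerivAt (tForm G)
      (∑ i, ∑ j, (fderiv ℝ (fun z => G z i j) y).smulRight ((tpr i).smulRight (tpr j))) y := h
  rw [h'.fderiv]
  simp [mul_assoc]

theorem tReg.fderiv_tConn_apply (hG : tReg G Ω) {y : tE d} (hy : y ∈ Ω) (a v w : tE d)
    (l : Fin d) :
    fderiv ℝ (tConn G) y a v w l
      = ∑ i, ∑ j, fderiv ℝ (fun z => christoffel G z l i j) y a * v i * w j := by
  have hd : ∀ k i j, HasFDerivAt (fun z => christoffel G z k i j)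
      (fderiv ℝ (fun z => christoffel G z k i j) y) y := fun k i j =>
    (((hG.christoffel_smooth k i j).contDiffAt (hG.isOpen.mem_nhds hy)).differentiableAt
      (by simp)).hasFDerivAt
  have h := tbr_hasFDerivAt_sum3 (fun k i j z => christoffel G z k i j)
    (fun k i j => fderiv ℝ (fun z => christoffel G z k i j) y)
    (fun k i j => (tpr i).smulRight ((tpr j).smulRight (tb k))) y hd
  have h' : HasFDerivAt (tConn G)
      (∑ k, ∑ i, ∑ j, (fderiv ℝ (fun z => christoffel G z k i j) y).smulRight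
        ((tpr i).smulRight ((tpr j).smulRight (tb k)))) y := h
  rw [h'.fderiv]
  simp only [sum_apply, smul_apply, ContinuousLinearMap.smulRight_apply]
  simp only [WithLp.ofLp_sum, WithLp.ofLp_smul, Finset.sum_apply, Pi.smul_apply, tb_apply,
    smul_eq_mul]
  rw [Finset.sum_eq_single l]
  · simp [mul_assoc]
  · intro b _ hb
    simp [Ne.symm hb]
  · simp

theorem tReg.riemannCoord_eq (hG : tReg G Ω) {y : tE d} (hy : y ∈ Ω) (l i j k : Fin d) :
    riemannCoord G y l i j k = tCurv G y (tb i) (tb j) (tb k) l := by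
  have h1 : ∀ a b c : Fin d, fderiv ℝ (tConn G) y (tb a) (tb b) (tb c) l
      = pdiff (fun w => christoffel G w l b c) a y := by
    intro a b c
    rw [hG.fderiv_tConn_apply hy, tpdiff_eq]
    simp
  have h2 : ∀ a b c : Fin d, tConn G y (tb a) (tConn G y (tb b) (tb c)) l
      = ∑ p, christoffel G y l a p * christoffel G y p b c := by
    intro a b c
    rw [tConn_apply]
    simp [tConn_tb]
  unfold riemannCoord tCurv
  rw [PiLp.sub_apply, PiLp.add_apply, PiLp.sub_apply, h1, h1, h2, h2, Finset.sum_sub_distrib]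
  ring

theorem tReg.ricciCoord_eq (hG : tReg G Ω) {y : tE d} (hy : y ∈ Ω) (j k : Fin d) :
    ricciCoord G y j k = ∑ i, tCurv G y (tb i) (tb j) (tb k) i := by
  unfold ricciCoord
  exact Finset.sum_congr rfl fun i _ => hG.riemannCoord_eq hy i i j k

end Claimed.Agent.R324
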