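/-
Row 324, tag Geo/T.  LEAF FILE `Koszul`: symmetry, nondegeneracy of `tForm`; Koszul formula for `tConn`.

PROOFS.
* `tForm_symm`: `tForm_apply`, `Finset.sum_comm`, `hG.symm`.
* `eq_zero_of_tForm`: take `w = tb l`: `∑_i G_il z_i = 0` for all `l`, i.e. `(G y)ᵀ *ᵥ z = 0` (or `Matrix.vecMul z (G y) = 0`); `G y` is invertible
     (`Matrix.eq_zero_of_vecMul_eq_zero` needs `det ≠ 0`: `(hG.unit y hy).ne_zero`); then `z = 0` (ext / `WithLp.ofLp_injective`).
* `koszul`:  LHS `= ∑_k ∑_l G_kl Γ^k(u,v) w_l` (`tForm_apply`, `tConn_apply`),  `Γ^k(u,v) = ∑_ij (1/2) ∑_m (G⁻¹)_km (∂_i G_jm + ∂_j G_im - ∂_m G_ij) u_i v_j`;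
     `∑_k G_lk (G⁻¹)_km = δ_lm` (`Matrix.mul_nonsing_inv (G y) (hG.unit y hy)`, read entrywise with `Matrix.mul_apply`, `Matrix.one_apply`; use `hG.symm` to write `G_kl = G_lk`).
     So LHS `= (1/2) ∑_l ∑_ij (∂_i G_jl + ∂_j G_il - ∂_l G_ij) u_i v_j w_l`.
     RHS: `tReg.fderiv_tForm_apply` and `fderiv ℝ f y a = ∑_m a_m * pdiff f m y` (`tclm_eq_sum`, `tpdiff_eq`).  Both sides are then equal after reindexing (`Finset.sum_comm`, `Finset.mul_sum`, `ring`).
     Suggestion: first prove the case of basis vectors `u = tb i, v = tb j, w = tb l`, then extend by trilinearity (both sides are linear in `u`, `v`, `w`: expand with `tclm_eq_sum`).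
-/
import Claimed.Agent.R324.Geo.T.Bridge

set_option autoImplicit false

namespace Claimed.Agent.R324

open Set Claims.C0510
open scoped ContDiff Topology

variable {d : ℕ} {G : tMF d} {Ω : Set (tE d)}

theorem tReg.tForm_symm (hG : tReg G Ω) {y : tE d} (hy : y ∈ Ω) (v w : tE d) :
    tForm G y v w = tForm G y w v := by
  rw [tForm_apply, tForm_apply, Finset.sum_comm]
  refine Finset.sum_congr rfl fun i _ => Finset.sum_congr rfl fun j _ => ?_
  rw [hG.symm y hy j i]
  ring

theorem tReg.eq_zero_of_tForm (hG : tReg G Ω) {y : tE d} (hy : y ∈ Ω) {z : tE d}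
    (h : ∀ w, tForm G y z w = 0) : z = 0 := by
  have h1 : Matrix.vecMul z.ofLp (G y) = 0 := by
    funext l
    have := h (tb l)
    rw [tForm_apply] at this
    simp only [Matrix.vecMul, dotProduct, Pi.zero_apply]
    rw [← this]
    refine Finset.sum_congr rfl fun i _ => ?_
    simp [mul_comm]
  have h2 := Matrix.eq_zero_of_vecMul_eq_zero (hG.unit y hy).ne_zero h1
  ext i
  simpa using congrFun h2 i

/-- `∑_k G_lk (G⁻¹)_km = δ_lm`. -/
theorem tko_mul_inv (hG : tReg G Ω) {y : tE d} (hy : y ∈ Ω) (l m : Fin d) :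
    ∑ k, G y l k * (G y)⁻¹ k m = if l = m then 1 else 0 := by
  have := congrFun (congrFun (Matrix.mul_nonsing_inv (G y) (hG.unit y hy)) l) m
  rwa [Matrix.mul_apply, Matrix.one_apply] at this

/-- lowering the index of the Christoffel symbol. -/
theorem tko_lower (hG : tReg G Ω) {y : tE d} (hy : y ∈ Ω) (i j l : Fin d) :
    ∑ k, G y k l * christoffel G y k i j
      = (1 / 2) * (pdiff (fun w => G w j l) i y + pdiff (fun w => G w i l) j y
          - pdiff (fun w => G w i j) l y) := by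
  unfold christoffel
  have : ∀ k, G y k l * ((1 / 2) * ∑ m, (G y)⁻¹ k m *
      (pdiff (fun w => G w j m) i y + pdiff (fun w => G w i m) j y - pdiff (fun w => G w i j) m y))
      = ∑ m, (1 / 2) * ((G y l k * (G y)⁻¹ k m) *
      (pdiff (fun w => G w j m) i y + pdiff (fun w => G w i m) j y
        - pdiff (fun w => G w i j) m y)) := by
    intro k
    rw [hG.symm y hy k l, Finset.mul_sum, Finset.mul_sum]
    refine Finset.sum_congr rfl fun m _ => ?_
    ring
  simp only [this]
  rw [Finset.sum_comm]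
  simp only [← Finset.mul_sum, ← Finset.sum_mul, tko_mul_inv hG hy]
  simp

theorem tko_basis (hG : tReg G Ω) {y : tE d} (hy : y ∈ Ω) (i j l : Fin d) :
    tForm G y (tConn G y (tb i) (tb j)) (tb l)
      = (1 / 2) * (fderiv ℝ (tForm G) y (tb i) (tb j) (tb l)
          + fderiv ℝ (tForm G) y (tb j) (tb i) (tb l)
          - fderiv ℝ (tForm G) y (tb l) (tb i) (tb j)) := by
  have e : ∀ a b c : Fin d, fderiv ℝ (tForm G) y (tb a) (tb b) (tb c)
      = pdiff (fun w => G w b c) a y := by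
    intro a b c
    rw [hG.fderiv_tForm_apply hy]
    simp [tpdiff_eq]
  rw [e, e, e, ← tko_lower hG hy, tForm_apply]
  simp only [tConn_tb]
  simp

/-- a trilinear form through its values on basis vectors. -/
theorem tko_tri (T : tE d →L[ℝ] tE d →L[ℝ] tE d →L[ℝ] ℝ) (u v w : tE d) :
    T u v w = ∑ i, ∑ j, ∑ l, u i * v j * w l * T (tb i) (tb j) (tb l) := by
  rw [tclm_eq_sum (F := tE d →L[ℝ] tE d →L[ℝ] ℝ) T u]
  simp only [sum_apply, smul_apply]
  refine Finset.sum_congr rfl fun i _ => ?_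
  rw [tclm_eq_sum (F := tE d →L[ℝ] ℝ) (T (tb i)) v]
  simp only [sum_apply, smul_apply, Finset.smul_sum]
  refine Finset.sum_congr rfl fun j _ => ?_
  rw [tclm_eq_sum (F := ℝ) (T (tb i) (tb j)) w]
  simp only [smul_eq_mul, Finset.mul_sum]
  refine Finset.sum_congr rfl fun l _ => ?_
  ring

theorem tReg.koszul (hG : tReg G Ω) {y : tE d} (hy : y ∈ Ω) (u v w : tE d) :
    tForm G y (tConn G y u v) w
      = (1 / 2) * (fderiv ℝ (tForm G) y u v w + fderiv ℝ (tForm G) y v u w
          - fderiv ℝ (tForm G) y w u v) := by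
  have h1 := tko_tri ((ContinuousLinearMap.compL ℝ (tE d) (tE d) (tE d →L[ℝ] ℝ)
    (tForm G y)).comp (tConn G y)) u v w
  simp only [ContinuousLinearMap.comp_apply, ContinuousLinearMap.compL_apply] at h1
  rw [h1, tko_tri (fderiv ℝ (tForm G) y) u v w, tko_tri (fderiv ℝ (tForm G) y) v u w,
    tko_tri (fderiv ℝ (tForm G) y) w u v]
  have e2 : ∑ j, ∑ i, ∑ l, v j * u i * w l * fderiv ℝ (tForm G) y (tb j) (tb i) (tb l)
      = ∑ i, ∑ j, ∑ l, u i * v j * w l * fderiv ℝ (tForm G) y (tb j) (tb i) (tb l) := by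
    rw [Finset.sum_comm]
    refine Finset.sum_congr rfl fun i _ => Finset.sum_congr rfl fun j _ =>
      Finset.sum_congr rfl fun l _ => ?_
    ring
  have e3 : ∑ l, ∑ i, ∑ j, w l * u i * v j * fderiv ℝ (tForm G) y (tb l) (tb i) (tb j)
      = ∑ i, ∑ j, ∑ l, u i * v j * w l * fderiv ℝ (tForm G) y (tb l) (tb i) (tb j) := by
    rw [Finset.sum_comm]
    refine Finset.sum_congr rfl fun i _ => ?_
    rw [Finset.sum_comm]
    refine Finset.sum_congr rfl fun j _ => Finset.sum_congr rfl fun l _ => ?_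
    ring
  rw [e2, e3, ← Finset.sum_add_distrib, ← Finset.sum_sub_distrib, Finset.mul_sum]
  refine Finset.sum_congr rfl fun i _ => ?_
  rw [← Finset.sum_add_distrib, ← Finset.sum_sub_distrib, Finset.mul_sum]
  refine Finset.sum_congr rfl fun j _ => ?_
  rw [← Finset.sum_add_distrib, ← Finset.sum_sub_distrib, Finset.mul_sum]
  refine Finset.sum_congr rfl fun l _ => ?_
  rw [tko_basis hG hy]
  ring

end Claimed.Agent.R324
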