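/-
Row 324, tag Geo/T.  LEAF FILE `PullD`: derivative of a pulled back form; injectivity / surjectivity of `Dθ`.

PROOFS.
* `tPull.fderiv_tForm`:  fix `a b`.  On the open set `Ω` the functions `z ↦ tForm G' z a b` and `z ↦ tForm G (θ z) (fderiv ℝ θ z a) (fderiv ℝ θ z b)` coincide (`hp`), so they have the same `fderiv` at `x`
     (`Filter.EventuallyEq.fderiv_eq`, `Filter.eventuallyEq_of_mem (hG'.isOpen.mem_nhds hx)`).
     Left:  `HasFDerivAt (tForm G') (fderiv ℝ (tForm G') x) x` (from `hG'.tForm_smooth`), then `.clm_apply (hasFDerivAt_const a x)` twice; evaluated at `c` it is `fderiv ℝ (tForm G') x c a b`.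
     Right: `h1 : HasFDerivAt (fun z => tForm G (θ z)) ((fderiv ℝ (tForm G) (θ x)).comp (fderiv ℝ θ x)) x` (chain rule, `hG.tForm_smooth` at `θ x ∈ Ω'`, `tθ_hasFDerivAt`),
            `h2 a : HasFDerivAt (fun z => fderiv ℝ θ z a) ((fderiv ℝ (fderiv ℝ θ) x).flip a) x`  (`(tθ_hasFDerivAt₂ ..).clm_apply (hasFDerivAt_const a x)`, `simpa`),
            `(h1.clm_apply (h2 a)).clm_apply (h2 b)`, evaluate at `c` (`simp`), reorder (`abel`/`ring`).     Model: R211/Pk03.lean, `IsPullback.fderiv_ip`.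
* `tPull.injective`: `Dθ v = 0` ⇒ `tForm G' x v w = 0` for all `w` (`hp`, `map_zero`, `ContinuousLinearMap.zero_apply`) ⇒ `v = 0` (`hG'.eq_zero_of_tForm`).   `injective_iff_map_eq_zero`.
* `tPull.surjective`: `LinearMap.injective_iff_surjective` for `(fderiv ℝ θ x).toLinearMap` (finite dimension).
-/
import Claimed.Agent.R324.Geo.T.Koszul
import Claimed.Agent.R324.Geo.T.Theta

set_option autoImplicit false

namespace Claimed.Agent.R324

open Set Claims.C0510
open scoped ContDiff Topology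

variable {d : ℕ} {G G' : tMF d} {θ : tE d → tE d} {Ω Ω' : Set (tE d)}

theorem tPull.fderiv_tForm (hG' : tReg G' Ω) (hG : tReg G Ω') (hθ : ContDiffOn ℝ ∞ θ Ω)
    (hm : MapsTo θ Ω Ω') (hp : tPull G' G θ Ω) {x : tE d} (hx : x ∈ Ω) (c a b : tE d) :
    fderiv ℝ (tForm G') x c a b
      = fderiv ℝ (tForm G) (θ x) (fderiv ℝ θ x c) (fderiv ℝ θ x a) (fderiv ℝ θ x b)
        + tForm G (θ x) (fderiv ℝ (fderiv ℝ θ) x c a) (fderiv ℝ θ x b)
        + tForm G (θ x) (fderiv ℝ θ x a) (fderiv ℝ (fderiv ℝ θ) x c b) := by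
  have hΩ := hG'.isOpen
  -- left hand side
  have hL0 : HasFDerivAt (tForm G') (fderiv ℝ (tForm G') x) x := hG'.tForm_hasFDerivAt hx
  have hL := (hL0.clm_apply (hasFDerivAt_const a x)).clm_apply (hasFDerivAt_const b x)
  -- right hand side
  have hθ1 : HasFDerivAt θ (fderiv ℝ θ x) x := tθ_hasFDerivAt hΩ hθ hx
  have hG0 : HasFDerivAt (tForm G) (fderiv ℝ (tForm G) (θ x)) (θ x) :=
    hG.tForm_hasFDerivAt (hm hx)
  have h1 : HasFDerivAt (fun z => tForm G (θ z))
      ((fderiv ℝ (tForm G) (θ x)).comp (fderiv ℝ θ x)) x :=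
    HasFDerivAt.comp (𝕜 := ℝ) (g := tForm G) (f := θ) x hG0 hθ1
  have h2 : ∀ e : tE d, HasFDerivAt (fun z => fderiv ℝ θ z e)
      ((fderiv ℝ (fderiv ℝ θ) x).flip e) x := by
    intro e
    have := (tθ_hasFDerivAt₂ hΩ hθ hx).clm_apply (hasFDerivAt_const e x)
    simpa using this
  have hR := (h1.clm_apply (h2 a)).clm_apply (h2 b)
  have heq : (fun z => tForm G' z a b) =ᶠ[𝓝 x]
      (fun z => tForm G (θ z) (fderiv ℝ θ z a) (fderiv ℝ θ z b)) :=
    Filter.eventuallyEq_of_mem (hΩ.mem_nhds hx) fun z hz => hp z hz a b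
  have h3 := hL.fderiv
  have h4 := hR.fderiv
  have h5 := heq.fderiv_eq (𝕜 := ℝ)
  rw [h3, h4] at h5
  have h6 := congrArg (fun L : tE d →L[ℝ] ℝ => L c) h5
  simp at h6
  rw [h6]
  abel

theorem tPull.injective (hG' : tReg G' Ω) (hp : tPull G' G θ Ω) {x : tE d} (hx : x ∈ Ω) :
    Function.Injective (fderiv ℝ θ x) := by
  rw [injective_iff_map_eq_zero]
  intro v hv
  refine hG'.eq_zero_of_tForm hx fun w => ?_
  rw [hp x hx v w, hv, map_zero, zero_apply]

theorem tPull.surjective (hG' : tReg G' Ω) (hp : tPull G' G θ Ω) {x : tE d} (hx : x ∈ Ω) :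
    Function.Surjective (fderiv ℝ θ x) := by
  have h := tPull.injective hG' hp hx
  exact (LinearMap.injective_iff_surjective (f := (fderiv ℝ θ x).toLinearMap)).1 h

end Claimed.Agent.R324
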