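/-
Row 324, tag Geo/T.  `ConnLaw`: transformation law of the connection term, and its derivative.

PROOFS.
* `tPull.conn` (done below from the leaves): Koszul on both sides + `tPull.fderiv_tForm` + symmetry of `D²θ`; test against `Dθ w` (surjectivity), nondegeneracy.
* `tPull.dconn` (LEAF): fix `u v`.  By `tPull.conn` the functions
       `L z = fderiv ℝ θ z (tConn G' z u v)`   and   `R z = fderiv ℝ (fderiv ℝ θ) z u v + tConn G (θ z) (fderiv ℝ θ z u) (fderiv ℝ θ z v)`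
     coincide on the open set `Ω`, hence have the same `fderiv` at `x` (`Filter.EventuallyEq.fderiv_eq`).  Compute both with `HasFDerivAt`:
     `hA  : HasFDerivAt (fderiv ℝ θ) (fderiv ℝ (fderiv ℝ θ) x) x`                    (`tθ_hasFDerivAt₂`)
     `hΓ' : HasFDerivAt (tConn G') (fderiv ℝ (tConn G') x) x`                          (`hG'.tConn_smooth`)
     `hΓ'uv := (hΓ'.clm_apply (hasFDerivAt_const u x)).clm_apply (hasFDerivAt_const v x)`
     `L`:  `hA.clm_apply hΓ'uv`;   evaluated at `a`:  `D²θ a (Γ' u v) + Dθ (DΓ' a u v)`.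
     `R`:  `((tθ_hasFDerivAt₃ ..).clm_apply (hasFDerivAt_const u x)).clm_apply (hasFDerivAt_const v x)`   gives `D³θ a u v`;
           `hΓθ : HasFDerivAt (fun z => tConn G (θ z)) ((fderiv ℝ (tConn G) (θ x)).comp (fderiv ℝ θ x)) x`  (chain rule),
           `(hΓθ.clm_apply (hA.clm_apply (hasFDerivAt_const u x))).clm_apply (hA.clm_apply (hasFDerivAt_const v x))`.
     Evaluate at `a` with `simp`, finish with `abel`.
-/
import Claimed.Agent.R324.Geo.T.PullD

set_option autoImplicit false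

namespace Claimed.Agent.R324

open Set Claims.C0510
open scoped ContDiff Topology

variable {d : ℕ} {G G' : tMF d} {θ : tE d → tE d} {Ω Ω' : Set (tE d)}

/-- Transformation law of the Christoffel symbols. -/
theorem tPull.conn (hG' : tReg G' Ω) (hG : tReg G Ω') (hθ : ContDiffOn ℝ ∞ θ Ω)
    (hm : MapsTo θ Ω Ω') (hp : tPull G' G θ Ω) {x : tE d} (hx : x ∈ Ω) (u v : tE d) :
    fderiv ℝ θ x (tConn G' x u v)
      = fderiv ℝ (fderiv ℝ θ) x u v + tConn G (θ x) (fderiv ℝ θ x u) (fderiv ℝ θ x v) := by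
  rw [← sub_eq_zero]
  refine hG.eq_zero_of_tForm (hm hx) fun z => ?_
  obtain ⟨w, rfl⟩ := hp.surjective hG' hx z
  rw [map_sub, map_add, sub_apply, add_apply, ← hp x hx]
  have k1 := hG'.koszul hx u v w
  have k2 := hG.koszul (hm hx) (fderiv ℝ θ x u) (fderiv ℝ θ x v) (fderiv ℝ θ x w)
  rw [hp.fderiv_tForm hG' hG hθ hm hx, hp.fderiv_tForm hG' hG hθ hm hx,
    hp.fderiv_tForm hG' hG hθ hm hx] at k1
  have s1 := tθ_symm₂ hG'.isOpen hθ hx u w
  have s2 := tθ_symm₂ hG'.isOpen hθ hx v w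
  have s3 := tθ_symm₂ hG'.isOpen hθ hx u v
  rw [s1, s2, s3] at k1
  have c1 := hG.tForm_symm (hm hx) (fderiv ℝ (fderiv ℝ θ) x w v) (fderiv ℝ θ x u)
  have c2 := hG.tForm_symm (hm hx) (fderiv ℝ (fderiv ℝ θ) x w u) (fderiv ℝ θ x v)
  have c3 := hG.tForm_symm (hm hx) (fderiv ℝ (fderiv ℝ θ) x v u) (fderiv ℝ θ x w)
  rw [s3]
  linarith

/-- The derivative of the transformation law. -/
theorem tPull.dconn (hG' : tReg G' Ω) (hG : tReg G Ω') (hθ : ContDiffOn ℝ ∞ θ Ω)
    (hm : MapsTo θ Ω Ω') (hp : tPull G' G θ Ω) {x : tE d} (hx : x ∈ Ω) (a u v : tE d) :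
    fderiv ℝ (fderiv ℝ θ) x a (tConn G' x u v) + fderiv ℝ θ x (fderiv ℝ (tConn G') x a u v)
      = fderiv ℝ (fderiv ℝ (fderiv ℝ θ)) x a u v
        + fderiv ℝ (tConn G) (θ x) (fderiv ℝ θ x a) (fderiv ℝ θ x u) (fderiv ℝ θ x v)
        + tConn G (θ x) (fderiv ℝ (fderiv ℝ θ) x a u) (fderiv ℝ θ x v)
        + tConn G (θ x) (fderiv ℝ θ x u) (fderiv ℝ (fderiv ℝ θ) x a v) := by
  have hO := hG'.isOpen
  have hθ1 := tθ_hasFDerivAt hO hθ hx
  have hA := tθ_hasFDerivAt₂ hO hθ hx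
  have hB := tθ_hasFDerivAt₃ hO hθ hx
  have hΓ' := hG'.tConn_hasFDerivAt hx
  have hΓ := hG.tConn_hasFDerivAt (hm hx)
  have hΓ'uv := (hΓ'.clm_apply (hasFDerivAt_const u x)).clm_apply (hasFDerivAt_const v x)
  have hL := hA.clm_apply hΓ'uv
  have hR1 := (hB.clm_apply (hasFDerivAt_const u x)).clm_apply (hasFDerivAt_const v x)
  have hΓθ : HasFDerivAt (fun z => tConn G (θ z))
      ((fderiv ℝ (tConn G) (θ x)).comp (fderiv ℝ θ x)) x :=
    HasFDerivAt.comp (g := tConn G) (f := θ) x hΓ hθ1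
  have hR2 := (hΓθ.clm_apply (hA.clm_apply (hasFDerivAt_const u x))).clm_apply
    (hA.clm_apply (hasFDerivAt_const v x))
  have hR := hR1.add hR2
  have heq : (fun z => fderiv ℝ θ z (tConn G' z u v)) =ᶠ[𝓝 x]
      fun z => fderiv ℝ (fderiv ℝ θ) z u v
        + tConn G (θ z) (fderiv ℝ θ z u) (fderiv ℝ θ z v) :=
    Filter.eventuallyEq_of_mem (hO.mem_nhds hx) fun z hz => tPull.conn hG' hG hθ hm hp hz u v
  have huniq := (hR.congr_of_eventuallyEq heq).unique hL
  have h := congrArg (fun T => T a) huniq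
  simp at h
  have h2 := h.symm
  rw [← sub_eq_zero] at h2 ⊢
  rw [← h2]
  abel

end Claimed.Agent.R324
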