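/-
Row 324, tag Geo/T.  `CurvLaw`: transformation law of the curvature operator  `Dθ (R'(a,b)c) = R(Dθ a, Dθ b) Dθ c`.
Pure algebra from `tPull.conn`, `tPull.dconn` and the symmetry of `D²θ`, `D³θ`.
-/
import Claimed.Agent.R324.Geo.T.ConnLaw

set_option autoImplicit false

namespace Claimed.Agent.R324

open Set Claims.C0510
open scoped ContDiff Topology

variable {d : ℕ} {G G' : tMF d} {θ : tE d → tE d} {Ω Ω' : Set (tE d)}

theorem tPull.curv (hG' : tReg G' Ω) (hG : tReg G Ω') (hθ : ContDiffOn ℝ ∞ θ Ω)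
    (hm : MapsTo θ Ω Ω') (hp : tPull G' G θ Ω) {x : tE d} (hx : x ∈ Ω) (a b c : tE d) :
    fderiv ℝ θ x (tCurv G' x a b c)
      = tCurv G (θ x) (fderiv ℝ θ x a) (fderiv ℝ θ x b) (fderiv ℝ θ x c) := by
  have d1 := hp.dconn hG' hG hθ hm hx a b c
  have d2 := hp.dconn hG' hG hθ hm hx b a c
  have c1 := hp.conn hG' hG hθ hm hx a (tConn G' x b c)
  have c2 := hp.conn hG' hG hθ hm hx b (tConn G' x a c)
  have e1 := hp.conn hG' hG hθ hm hx b c
  have e2 := hp.conn hG' hG hθ hm hx a c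
  rw [e1, map_add] at c1
  rw [e2, map_add] at c2
  have s2 := tθ_symm₂ hG'.isOpen hθ hx a b
  have s3 := tθ_symm₃ hG'.isOpen hθ hx a b c
  rw [s2, s3] at d1
  unfold tCurv
  simp only [map_add, map_sub]
  linear_combination (norm := module) d1 - d2 + c1 - c2

end Claimed.Agent.R324
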