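/-
Row 324, tag Geo/T.  LEAF FILE `Trace`: linear algebra for the Ricci contraction.

PROOFS.
* `tTrace_conj`:  `∑ i, L (tb i) i = LinearMap.trace ℝ (tE d) L`:  use the basis `(EuclideanSpace.basisFun (Fin d) ℝ).toBasis` (its `i`-th vector is `tb i`, `repr v i = v i`):
     `LinearMap.trace_eq_matrix_trace ℝ b L`, `Matrix.trace`, `Matrix.diag`, `LinearMap.toMatrix_apply`.     (State this as an auxiliary lemma `tTrace_eq`.)
     `A` injective ⇒ bijective (finite dimension): `e : tE d ≃ₗ[ℝ] tE d := LinearEquiv.ofInjectiveEndo A.toLinearMap hA`;  `h` says `L' = e.symm ∘ L ∘ e`, i.e. `L = e.conj L'`;   `LinearMap.trace_conj'`.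
     (Alternative: `LinearMap.trace_mul_comm`.)
* `tCurv_expand`: `tCurv G y a v w` is additive and homogeneous in `v` and in `w` (all four terms are values of continuous (bi/tri)linear maps).  Write `v = ∑ b, v b • tb b`, `w = ∑ c, w c • tb c` (`tE_eq_sum`)
     and expand: unfold `tCurv`, `simp only [map_sum, map_smul, ContinuousLinearMap.sum_apply/sum_apply, smul_apply, ...]`; or prove first `tCurv_add_v`, `tCurv_smul_v`, `tCurv_add_w`, `tCurv_smul_w`
     and package `v ↦ tCurv G y a v w`, `w ↦ tCurv G y a v w` as linear maps, then `map_sum`.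
-/
import Claimed.Agent.R324.Geo.T.Basic

set_option autoImplicit false

namespace Claimed.Agent.R324

open Set Claims.C0510
open scoped ContDiff Topology

variable {d : ℕ}

/-- `a ↦ R(a,v)w` as a linear map. -/
noncomputable def tCurvLin (G : tMF d) (y v w : tE d) : tE d →ₗ[ℝ] tE d where
  toFun a := tCurv G y a v w
  map_add' a b := by
    simp only [tCurv, map_add, add_apply]
    abel
  map_smul' r a := by
    simp only [tCurv, map_smul, smul_apply, RingHom.id_apply, smul_add, smul_sub]

theorem tCurvLin_apply (G : tMF d) (y v w a : tE d) : tCurvLin G y v w a = tCurv G y a v w := rfl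

theorem ttr_trace_eq (L : tE d →ₗ[ℝ] tE d) :
    ∑ i, L (tb i) i = LinearMap.trace ℝ (tE d) L := by
  rw [LinearMap.trace_eq_matrix_trace ℝ (EuclideanSpace.basisFun (Fin d) ℝ).toBasis L]
  simp [Matrix.trace, Matrix.diag, LinearMap.toMatrix_apply]

theorem tTrace_conj (A : tE d →L[ℝ] tE d) (hA : Function.Injective A) (L L' : tE d →ₗ[ℝ] tE d)
    (h : ∀ a, A (L' a) = L (A a)) : ∑ i, L' (tb i) i = ∑ i, L (tb i) i := by
  let e : tE d ≃ₗ[ℝ] tE d := LinearEquiv.ofInjectiveEndo A.toLinearMap hA
  have he : ∀ a, e a = A a := fun a => rfl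
  have hL : e.conj L' = L := by
    apply LinearMap.ext
    intro a
    rw [LinearEquiv.conj_apply_apply, he, h, ← he, LinearEquiv.apply_symm_apply]
  rw [ttr_trace_eq, ttr_trace_eq, ← hL, LinearMap.trace_conj']

/-- a linear map evaluated through the basis. -/
theorem ttr_lin_expand {F : Type*} [AddCommGroup F] [Module ℝ F] (f : tE d →ₗ[ℝ] F) (v : tE d) :
    f v = ∑ i, v i • f (tb i) := by
  conv_lhs => rw [tE_eq_sum v]
  simp only [map_sum, map_smul]

/-- `v ↦ R(a,v)w` as a linear map. -/
noncomputable def ttr_linV (G : tMF d) (y a w : tE d) : tE d →ₗ[ℝ] tE d where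
  toFun v := tCurv G y a v w
  map_add' v v' := by
    simp only [tCurv, map_add, add_apply]
    abel
  map_smul' r v := by
    simp only [tCurv, map_smul, smul_apply, RingHom.id_apply, smul_add, smul_sub]

/-- `w ↦ R(a,v)w` as a linear map. -/
noncomputable def ttr_linW (G : tMF d) (y a v : tE d) : tE d →ₗ[ℝ] tE d where
  toFun w := tCurv G y a v w
  map_add' w w' := by
    simp only [tCurv, map_add]
    abel
  map_smul' r w := by
    simp only [tCurv, map_smul, RingHom.id_apply, smul_add, smul_sub]

theorem tCurv_expand (G : tMF d) (y a v w : tE d) :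
    tCurv G y a v w = ∑ b, ∑ c, (v b * w c) • tCurv G y a (tb b) (tb c) := by
  have h1 : tCurv G y a v w = ∑ b, v b • tCurv G y a (tb b) w :=
    ttr_lin_expand (ttr_linV G y a w) v
  have h2 : ∀ b : Fin d, tCurv G y a (tb b) w = ∑ c, w c • tCurv G y a (tb b) (tb c) :=
    fun b => ttr_lin_expand (ttr_linW G y a (tb b)) w
  rw [h1]
  refine Finset.sum_congr rfl (fun b _ => ?_)
  rw [h2 b, Finset.smul_sum]
  refine Finset.sum_congr rfl (fun c _ => ?_)
  rw [smul_smul]

end Claimed.Agent.R324
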