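/-
Row 324, tag Geo/T.  `RicLaw`: transformation law of `ricciCoord` under a pull back (general dimension).   Assembly (no sorry here).
-/
import Claimed.Agent.R324.Geo.T.CurvLaw
import Claimed.Agent.R324.Geo.T.Trace

set_option autoImplicit false

namespace Claimed.Agent.R324

open Set Claims.C0510
open scoped ContDiff Topology

variable {d : ℕ} {G G' : tMF d} {θ : tE d → tE d} {Ω Ω' : Set (tE d)}

/-- invariant form. -/
theorem tPull.ricci_inv (hG' : tReg G' Ω) (hG : tReg G Ω') (hθ : ContDiffOn ℝ ∞ θ Ω)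
    (hm : MapsTo θ Ω Ω') (hp : tPull G' G θ Ω) {x : tE d} (hx : x ∈ Ω) (j k : Fin d) :
    ricciCoord G' x j k = ∑ b, ∑ c, fderiv ℝ θ x (tb j) b * fderiv ℝ θ x (tb k) c
      * ricciCoord G (θ x) b c := by
  rw [hG'.ricciCoord_eq hx]
  have h1 := tTrace_conj (fderiv ℝ θ x) (hp.injective hG' hx)
    (tCurvLin G (θ x) (fderiv ℝ θ x (tb j)) (fderiv ℝ θ x (tb k))) (tCurvLin G' x (tb j) (tb k))
    (fun a => by
      simp only [tCurvLin_apply]
      exact hp.curv hG' hG hθ hm hx a (tb j) (tb k))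
  simp only [tCurvLin_apply] at h1
  rw [h1]
  have h2 : ∀ i : Fin d, tCurv G (θ x) (tb i) (fderiv ℝ θ x (tb j)) (fderiv ℝ θ x (tb k)) i
      = ∑ b, ∑ c, fderiv ℝ θ x (tb j) b * fderiv ℝ θ x (tb k) c
          * tCurv G (θ x) (tb i) (tb b) (tb c) i := by
    intro i
    conv_lhs => rw [tCurv_expand]
    simp
  simp only [h2]
  rw [Finset.sum_comm]
  refine Finset.sum_congr rfl fun b _ => ?_
  rw [Finset.sum_comm]
  refine Finset.sum_congr rfl fun c _ => ?_
  rw [hG.ricciCoord_eq (hm hx), Finset.mul_sum]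

/-- **Transformation law of the Ricci tensor** (coordinates). -/
theorem tPull.ricci (hG' : tReg G' Ω) (hG : tReg G Ω') (hθ : ContDiffOn ℝ ∞ θ Ω)
    (hm : MapsTo θ Ω Ω') (hp : tPull G' G θ Ω) {x : tE d} (hx : x ∈ Ω) (j k : Fin d) :
    ricciCoord G' x j k = ∑ b, ∑ c, pdiff (fun w => θ w b) j x * pdiff (fun w => θ w c) k x
      * ricciCoord G (θ x) b c := by
  rw [hp.ricci_inv hG' hG hθ hm hx]
  have hd := (tθ_hasFDerivAt hG'.isOpen hθ hx).differentiableAt
  simp only [tfderiv_comp_apply hd, tpdiff_eq]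

/-- the pull back relation in coordinates. -/
theorem tPull.entry (hΩ : IsOpen Ω) (hθ : ContDiffOn ℝ ∞ θ Ω) (hp : tPull G' G θ Ω) {x : tE d}
    (hx : x ∈ Ω) (j k : Fin d) :
    G' x j k = ∑ b, ∑ c, pdiff (fun w => θ w b) j x * pdiff (fun w => θ w c) k x
      * G (θ x) b c := by
  have hd := (tθ_hasFDerivAt hΩ hθ hx).differentiableAt
  rw [← tForm_tb G', hp x hx, tForm_apply]
  simp only [tfderiv_comp_apply hd, tpdiff_eq]
  refine Finset.sum_congr rfl fun b _ => Finset.sum_congr rfl fun c _ => ?_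
  ring

end Claimed.Agent.R324
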