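/-
Row 324, tag Geo/T.  LEAF FILE `Coord`: the matrix field `coordMetric g ψ`; chain rule for `ψ₁ = ψ₂ ∘ θ`.

PROOFS.
* `tForm_coordMetric`: `tForm_apply`; `coordMetric g ψ x i j = g (ψ x) (Dψ (tb i)) (Dψ (tb j))` (`rfl` / `Matrix.of_apply`).   Expand `Dψ v = ∑ i, v i • Dψ (tb i)` (`tclm_eq_sum`) in both slots:
     `map_sum`, `map_smul`, `sum_apply`, `smul_apply`, `smul_eq_mul`, `Finset.mul_sum`, `ring`.
* `tchain`: `ψ₁ =ᶠ[𝓝 x] ψ₂ ∘ θ` (`Filter.eventuallyEq_of_mem (hO.mem_nhds hx)`, `hcomp`), `Filter.EventuallyEq.fderiv_eq`, chain rule `HasFDerivAt.comp` (`ψ₂` differentiable at `θ x ∈ U₂`, `θ` at `x`: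
     `((h.contDiffAt (hopen.mem_nhds _)).differentiableAt (by simp)).hasFDerivAt`), `.fderiv`.
* `tPull_coordMetric`: `intro x hx v w; rw [tForm_coordMetric, tForm_coordMetric, hcomp x hx, tchain ..]; rfl`.
-/
import Claimed.Agent.R324.Geo.T.Basic

set_option autoImplicit false

namespace Claimed.Agent.R324

open Set Claims.C0510
open scoped ContDiff Topology

variable {d N : ℕ}

theorem tForm_coordMetric (g : tE N → tE N →L[ℝ] tE N →L[ℝ] ℝ) (ψ : tE d → tE N) (x v w : tE d) :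
    tForm (coordMetric g ψ) x v w = g (ψ x) (fderiv ℝ ψ x v) (fderiv ℝ ψ x w) := by
  rw [tForm_apply, tclm_eq_sum (fderiv ℝ ψ x) v, tclm_eq_sum (fderiv ℝ ψ x) w]
  have e : ∀ i j, coordMetric g ψ x i j
      = g (ψ x) (fderiv ℝ ψ x (tb i)) (fderiv ℝ ψ x (tb j)) := fun _ _ => rfl
  simp only [e, map_sum, map_smul, ContinuousLinearMap.sum_apply, ContinuousLinearMap.smul_apply,
    smul_eq_mul, Finset.mul_sum]
  rw [Finset.sum_comm]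
  refine Finset.sum_congr rfl fun i _ => Finset.sum_congr rfl fun j _ => ?_
  ring

theorem tchain {ψ₁ ψ₂ : tE d → tE N} {θ : tE d → tE d} {O U₂ : Set (tE d)} (hO : IsOpen O)
    (hU₂ : IsOpen U₂) (hψ₂ : ContDiffOn ℝ ∞ ψ₂ U₂) (hθ : ContDiffOn ℝ ∞ θ O)
    (hmaps : MapsTo θ O U₂) (hcomp : ∀ x ∈ O, ψ₂ (θ x) = ψ₁ x) {x : tE d} (hx : x ∈ O) :
    fderiv ℝ ψ₁ x = (fderiv ℝ ψ₂ (θ x)).comp (fderiv ℝ θ x) := by
  have h1 : ψ₁ =ᶠ[𝓝 x] ψ₂ ∘ θ :=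
    Filter.eventuallyEq_of_mem (hO.mem_nhds hx) fun y hy => (hcomp y hy).symm
  have h2 : HasFDerivAt ψ₂ (fderiv ℝ ψ₂ (θ x)) (θ x) :=
    ((hψ₂.contDiffAt (hU₂.mem_nhds (hmaps hx))).differentiableAt (by simp)).hasFDerivAt
  have h3 : HasFDerivAt θ (fderiv ℝ θ x) x :=
    ((hθ.contDiffAt (hO.mem_nhds hx)).differentiableAt (by simp)).hasFDerivAt
  rw [h1.fderiv_eq]
  exact (h2.comp x h3).fderiv

theorem tPull_coordMetric (g : tE N → tE N →L[ℝ] tE N →L[ℝ] ℝ) {ψ₁ ψ₂ : tE d → tE N}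
    {θ : tE d → tE d} {O U₂ : Set (tE d)} (hO : IsOpen O)
    (hU₂ : IsOpen U₂) (hψ₂ : ContDiffOn ℝ ∞ ψ₂ U₂) (hθ : ContDiffOn ℝ ∞ θ O)
    (hmaps : MapsTo θ O U₂) (hcomp : ∀ x ∈ O, ψ₂ (θ x) = ψ₁ x) :
    tPull (coordMetric g ψ₁) (coordMetric g ψ₂) θ O := by
  intro x hx v w
  rw [tForm_coordMetric, tForm_coordMetric, hcomp x hx, tchain hO hU₂ hψ₂ hθ hmaps hcomp hx]
  rfl

end Claimed.Agent.R324
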