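/-
Row 324, tag Geo/T.  LEAF FILE `LocInv`: an immersion has a smooth local left inverse.

PROOF of `tLocInv`.  `L := fderiv ℝ ψ w : tE d →L[ℝ] tE N` is injective.  Choose a linear left inverse:
   `obtain ⟨P₀, hP₀⟩ := LinearMap.exists_leftInverse_of_injective L.toLinearMap (LinearMap.ker_eq_bot.2 hinj)`   (`hP₀ : P₀ ∘ₗ L = LinearMap.id`),   `P : tE N →L[ℝ] tE d := LinearMap.toContinuousLinearMap P₀`.
 `φ := fun y => P (ψ y)` is `ContDiffAt ℝ ∞` at `w` (`P.contDiff.contDiffAt.comp w hψ`) and `HasFDerivAt φ (P.comp L) w`, `P.comp L = ContinuousLinearMap.id = ((ContinuousLinearEquiv.refl ℝ (tE d) : _ ≃L[ℝ] _) : _ →L[ℝ] _)`.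
 Inverse function theorem:  `hφ.to_localInverse (f' := ContinuousLinearEquiv.refl ℝ (tE d)) hφ' (by simp) : ContDiffAt ℝ ∞ (hφ.localInverse hφ' _) (φ w)`,
   and  `(hφ.hasStrictFDerivAt' hφ' (by simp)).eventually_left_inverse : ∀ᶠ y in 𝓝 w, localInverse (φ y) = y`   (`ContDiffAt.localInverse` unfolds to `HasStrictFDerivAt.localInverse`).
 `ρ := fun p => σ (P p)`, `σ` the local inverse: `ContDiffAt` at `ψ w` by composition.
-/
import Claimed.Agent.R324.Geo.T.Basic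

set_option autoImplicit false

namespace Claimed.Agent.R324

open Set Claims.C0510
open scoped ContDiff Topology

theorem tLocInv {d N : ℕ} {ψ : tE d → tE N} {w : tE d} (hψ : ContDiffAt ℝ ∞ ψ w)
    (hinj : Function.Injective (fderiv ℝ ψ w)) :
    ∃ ρ : tE N → tE d, ContDiffAt ℝ ∞ ρ (ψ w) ∧ ∀ᶠ y in 𝓝 w, ρ (ψ y) = y := by
  obtain ⟨P₀, hP₀⟩ := LinearMap.exists_leftInverse_of_injective (fderiv ℝ ψ w).toLinearMap
    (LinearMap.ker_eq_bot.2 hinj)
  set P : tE N →L[ℝ] tE d := LinearMap.toContinuousLinearMap P₀ with hP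
  have hn : (∞ : WithTop ℕ∞) ≠ 0 := by simp
  have hφ : ContDiffAt ℝ ∞ (fun y => P (ψ y)) w := P.contDiff.contDiffAt.comp w hψ
  have hψd : HasFDerivAt ψ (fderiv ℝ ψ w) w := (hψ.differentiableAt hn).hasFDerivAt
  have hcomp : P.comp (fderiv ℝ ψ w) =
      ((ContinuousLinearEquiv.refl ℝ (tE d) : tE d ≃L[ℝ] tE d) : tE d →L[ℝ] tE d) := by
    ext1 v
    have h1 := LinearMap.congr_fun hP₀ v
    simpa [hP] using h1
  have hφ' : HasFDerivAt (fun y => P (ψ y))
      ((ContinuousLinearEquiv.refl ℝ (tE d) : tE d ≃L[ℝ] tE d) : tE d →L[ℝ] tE d) w := by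
    rw [← hcomp]
    exact P.hasFDerivAt.comp w hψd
  refine ⟨fun p => hφ.localInverse hφ' hn (P p), ?_, ?_⟩
  · have h1 : ContDiffAt ℝ ∞ (hφ.localInverse hφ' hn) (P (ψ w)) := hφ.to_localInverse hφ' hn
    exact h1.comp (ψ w) P.contDiff.contDiffAt
  · exact (hφ.hasStrictFDerivAt' hφ' hn).eventually_left_inverse

end Claimed.Agent.R324
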