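/-
Row 324, tag Geo/T (G1).  LEAF FILE `Trans`: the transition map `tMap ψ₁ ψ₂ U₂ = ψ₂⁻¹ ∘ ψ₁` of two local parametrisations of the same set `M` is smooth on the open set `tDom ψ₁ U₁ ψ₂ U₂`.

`IsLocalParam M ψ U` unfolds to  `IsOpen U ∧ ContDiffOn ℝ ∞ ψ U ∧ (∀ u ∈ U, Injective (fderiv ℝ ψ u)) ∧ InjOn ψ U ∧ (∃ V, IsOpen V ∧ ψ '' U = M ∩ V) ∧ ContinuousOn (invFunOn ψ U) (ψ '' U)`.

PROOFS.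
* `tDom_isOpen`: with `ψ₂ '' U₂ = M ∩ V₂` and `ψ₁ x ∈ ψ₁ '' U₁ = M ∩ V₁ ⊆ M` for `x ∈ U₁`:  `tDom = U₁ ∩ ψ₁ ⁻¹' V₂`;  `ContinuousOn.isOpen_inter_preimage h₁.2.1.continuousOn h₁.1 hV₂`.
* `tMap_mem`, `tMap_spec`: `Function.invFunOn_mem`, `Function.invFunOn_eq` (argument: `hx.2 : ∃ y ∈ U₂, ψ₂ y = ψ₁ x`, up to the shape of `Set.image`).
* `tMap_continuousOn`: composition of `ContinuousOn (invFunOn ψ₂ U₂) (ψ₂ '' U₂)` with `ψ₁` (`ContinuousOn.comp`, `MapsTo` = second component of `tDom`).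
* `tMap_contDiffOn`: at `u ∈ tDom` put `w = tMap u ∈ U₂`, `ψ₂ w = ψ₁ u`.  `tLocInv` for `ψ₂` at `w` gives `ρ`, smooth at `ψ₂ w = ψ₁ u`, `hρ : ∀ᶠ y in 𝓝 w, ρ (ψ₂ y) = y`.
     `tMap` is continuous at `u` (`tMap_continuousOn`, `tDom` open: `ContinuousOn.continuousAt _ (hopen.mem_nhds hu)`), so `∀ᶠ x in 𝓝 u, ρ (ψ₂ (tMap x)) = tMap x` (`ContinuousAt.eventually` / `Filter.Tendsto.eventually`), and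
     `∀ᶠ x in 𝓝 u, x ∈ tDom`, where `ψ₂ (tMap x) = ψ₁ x`.  Hence `tMap =ᶠ[𝓝 u] ρ ∘ ψ₁`, which is `ContDiffAt` at `u`  (`ContDiffAt.comp`, `ContDiffAt.congr_of_eventuallyEq`);  `ContDiffAt.contDiffWithinAt`.
* `tMap_eq`: `h₂.2.2.2.1 : InjOn ψ₂ U₂` applied to `tMap_mem`, `hc`, `tMap_spec`.
* `tMap_fderiv_injective`: by `tchain` (Geo/T/Coord.lean) `fderiv ψ₁ x = (fderiv ψ₂ (tMap x)).comp (fderiv tMap x)`; `fderiv ψ₁ x` is injective (`h₁.2.2.1 x hx.1`), so is the inner factor (`Function.Injective.of_comp`).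
-/
import Claimed.Agent.R324.Geo.T.LocInv
import Claimed.Agent.R324.Geo.T.Coord

set_option autoImplicit false

namespace Claimed.Agent.R324

open Set Claims.C0510
open scoped ContDiff Topology

variable {d N : ℕ} {M : Set (tE N)} {ψ₁ ψ₂ : tE d → tE N} {U₁ U₂ : Set (tE d)}

theorem tDom_subset : tDom ψ₁ U₁ ψ₂ U₂ ⊆ U₁ := fun _ hx => hx.1

theorem tDom_isOpen (h₁ : IsLocalParam M ψ₁ U₁) (h₂ : IsLocalParam M ψ₂ U₂) :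
    IsOpen (tDom ψ₁ U₁ ψ₂ U₂) := by
  obtain ⟨V₁, -, hV₁e⟩ := h₁.2.2.2.2.1
  obtain ⟨V₂, hV₂, hV₂e⟩ := h₂.2.2.2.2.1
  have e : tDom ψ₁ U₁ ψ₂ U₂ = U₁ ∩ ψ₁ ⁻¹' V₂ := by
    ext x
    constructor
    · rintro ⟨hx1, hx2⟩
      rw [hV₂e] at hx2
      exact ⟨hx1, hx2.2⟩
    · rintro ⟨hx1, hx2⟩
      refine ⟨hx1, ?_⟩
      rw [hV₂e]
      have hm : ψ₁ x ∈ M ∩ V₁ := hV₁e ▸ mem_image_of_mem ψ₁ hx1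
      exact ⟨hm.1, hx2⟩
  rw [e]
  exact h₁.2.1.continuousOn.isOpen_inter_preimage h₁.1 hV₂

theorem tMap_mem {x : tE d} (hx : x ∈ tDom ψ₁ U₁ ψ₂ U₂) : tMap ψ₁ ψ₂ U₂ x ∈ U₂ := by
  obtain ⟨y, hy, hyx⟩ := hx.2
  exact Function.invFunOn_mem ⟨y, hy, hyx⟩

theorem tMap_spec {x : tE d} (hx : x ∈ tDom ψ₁ U₁ ψ₂ U₂) : ψ₂ (tMap ψ₁ ψ₂ U₂ x) = ψ₁ x := by
  obtain ⟨y, hy, hyx⟩ := hx.2
  exact Function.invFunOn_eq ⟨y, hy, hyx⟩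

theorem tMap_mapsTo : MapsTo (tMap ψ₁ ψ₂ U₂) (tDom ψ₁ U₁ ψ₂ U₂) U₂ := fun _ hx => tMap_mem hx

theorem tMap_continuousOn (h₁ : IsLocalParam M ψ₁ U₁) (h₂ : IsLocalParam M ψ₂ U₂) :
    ContinuousOn (tMap ψ₁ ψ₂ U₂) (tDom ψ₁ U₁ ψ₂ U₂) :=
  h₂.2.2.2.2.2.comp (h₁.2.1.continuousOn.mono tDom_subset) (fun _ hx => hx.2)

theorem tMap_contDiffOn (h₁ : IsLocalParam M ψ₁ U₁) (h₂ : IsLocalParam M ψ₂ U₂) :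
    ContDiffOn ℝ ∞ (tMap ψ₁ ψ₂ U₂) (tDom ψ₁ U₁ ψ₂ U₂) := by
  intro u hu
  have hopen := tDom_isOpen h₁ h₂
  have hw : tMap ψ₁ ψ₂ U₂ u ∈ U₂ := tMap_mem hu
  have hsp : ψ₂ (tMap ψ₁ ψ₂ U₂ u) = ψ₁ u := tMap_spec hu
  obtain ⟨ρ, hρ, hρe⟩ := tLocInv (h₂.2.1.contDiffAt (h₂.1.mem_nhds hw)) (h₂.2.2.1 _ hw)
  have hcont : ContinuousAt (tMap ψ₁ ψ₂ U₂) u :=
    (tMap_continuousOn h₁ h₂).continuousAt (hopen.mem_nhds hu)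
  have h3 : ∀ᶠ x in 𝓝 u, ρ (ψ₂ (tMap ψ₁ ψ₂ U₂ x)) = tMap ψ₁ ψ₂ U₂ x := hcont.eventually hρe
  have h4 : tMap ψ₁ ψ₂ U₂ =ᶠ[𝓝 u] fun x => ρ (ψ₁ x) := by
    filter_upwards [h3, hopen.mem_nhds hu] with x hx1 hx2
    rw [← tMap_spec hx2, hx1]
  rw [hsp] at hρ
  have h5 : ContDiffAt ℝ ∞ (fun x => ρ (ψ₁ x)) u :=
    hρ.comp u (h₁.2.1.contDiffAt (h₁.1.mem_nhds hu.1))
  exact (h5.congr_of_eventuallyEq h4).contDiffWithinAt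

theorem tMap_eq (h₂ : IsLocalParam M ψ₂ U₂) {x c : tE d} (hx : x ∈ tDom ψ₁ U₁ ψ₂ U₂) (hc : c ∈ U₂)
    (h : ψ₁ x = ψ₂ c) : tMap ψ₁ ψ₂ U₂ x = c :=
  h₂.2.2.2.1 (tMap_mem hx) hc ((tMap_spec hx).trans h)

theorem tMap_fderiv_injective (h₁ : IsLocalParam M ψ₁ U₁) (h₂ : IsLocalParam M ψ₂ U₂) {x : tE d}
    (hx : x ∈ tDom ψ₁ U₁ ψ₂ U₂) : Function.Injective (fderiv ℝ (tMap ψ₁ ψ₂ U₂) x) := by
  have hch := tchain (ψ₁ := ψ₁) (tDom_isOpen h₁ h₂) h₂.1 h₂.2.1 (tMap_contDiffOn h₁ h₂) tMap_mapsTo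
    (fun _ hy => tMap_spec hy) hx
  have hinj : Function.Injective (fderiv ℝ ψ₁ x) := h₁.2.2.1 x hx.1
  rw [hch] at hinj
  exact Function.Injective.of_comp (f := fderiv ℝ ψ₂ (tMap ψ₁ ψ₂ U₂ x)) hinj

end Claimed.Agent.R324
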